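import Vale.Agent.P271.H879.Chart
import Vale.Agent.P271.H408.Ext

/-!
P271, row 03-L2REG: a quotient of elements of `R` which is holomorphic (or square integrable) in an
analytic chart at a regular point belongs to the local ring.
-/

set_option linter.unusedSectionVars false

open Filter Topology Metric Asymptotics MeasureTheory
open scoped ENNReal

namespace Vale.Agent.P271.H577

open Vale.Agent.P271.H741

section poly

/-- A homogeneous form given by a multilinear map is a polynomial. -/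
theorem exists_poly_multilinear {d k : ℕ} (p : ContinuousMultilinearMap ℂ (fun _ : Fin k => (Fin d → ℂ)) ℂ) :
    ∃ Q : MvPolynomial (Fin d) ℂ, ∀ y : Fin d → ℂ, MvPolynomial.eval y Q = p fun _ => y := by
  classical
  refine ⟨∑ f : Fin k → Fin d, MvPolynomial.C (p fun l => Pi.single (f l) (1 : ℂ)) *
    ∏ l, MvPolynomial.X (f l), fun y => ?_⟩
  have hy : y = ∑ j, y j • (Pi.single j (1 : ℂ) : Fin d → ℂ) := by
    ext i
    simp [Finset.sum_apply, Pi.single_apply]
  have h1 : (p fun _ => y) = p fun _ => ∑ j, y j • (Pi.single j (1 : ℂ) : Fin d → ℂ) := by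
    rw [← hy]
  rw [h1, ContinuousMultilinearMap.map_sum, map_sum]
  refine Finset.sum_congr rfl fun f _ => ?_
  rw [ContinuousMultilinearMap.map_smul_univ]
  simp [mul_comm]

/-- Taylor polynomials. -/
theorem exists_taylor {d : ℕ} {h : (Fin d → ℂ) → ℂ} (hh : AnalyticAt ℂ h 0) (k : ℕ) :
    ∃ Q : MvPolynomial (Fin d) ℂ,
      (fun x => h x - MvPolynomial.eval x Q) =O[𝓝 0] fun x => ‖x‖ ^ k := by
  obtain ⟨p, hp⟩ := hh
  have h1 := hp.isBigO_sub_partialSum_pow k
  simp only [zero_add] at h1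
  choose Q hQ using fun i => exists_poly_multilinear (p i)
  refine ⟨∑ i ∈ Finset.range k, Q i, ?_⟩
  refine h1.congr_left fun x => ?_
  rw [FormalMultilinearSeries.partialSum, map_sum]
  simp only [hQ]

end poly

section chart

variable {R : Type} [CommRing R] [Algebra ℂ R] {φ : R →ₐ[ℂ] ℂ} {d : ℕ} (c : Chart φ d)

theorem psi_aeval {x : Fin d → ℂ} (hx : x ∈ ball (0 : Fin d → ℂ) c.ρ) (Q : MvPolynomial (Fin d) ℂ) :
    c.ψ x (MvPolynomial.aeval c.t Q) = MvPolynomial.eval x Q := by
  have h : (c.ψ x).comp (MvPolynomial.aeval c.t) = MvPolynomial.aeval x := by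
    refine MvPolynomial.algHom_ext fun j => ?_
    rw [AlgHom.comp_apply, MvPolynomial.aeval_X, MvPolynomial.aeval_X, c.coord x hx j]
  have h2 := congrArg (fun g => g Q) h
  simpa [MvPolynomial.aeval_eq_eval] using h2

theorem ball_mem : ball (0 : Fin d → ℂ) c.ρ ∈ 𝓝 (0 : Fin d → ℂ) := ball_mem_nhds _ c.ρ_pos

theorem cont (a : R) : ContinuousAt (fun x => c.ψ x a) 0 :=
  (c.holo a 0 (mem_ball_self c.ρ_pos)).continuousAt

/-- The leading form of a homogeneous expression in the parameters. -/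
theorem coeff_zero {k : ℕ} {P : MvPolynomial (Fin d) R} (hP : P.IsHomogeneous k)
    (hO : (fun x => c.ψ x (MvPolynomial.eval c.t P)) =O[𝓝 0] fun x => ‖x‖ ^ (k + 1)) (m : Fin d →₀ ℕ) :
    φ (P.coeff m) = 0 := by
  have key : MvPolynomial.map (φ : R →+* ℂ) P = 0 := by
    refine MvPolynomial.funext fun v => ?_
    rw [map_zero]
    -- the line `s ↦ s v`
    have hline : Tendsto (fun s : ℂ => s • v) (𝓝[≠] 0) (𝓝 0) := by
      have : Tendsto (fun s : ℂ => s • v) (𝓝 0) (𝓝 ((0 : ℂ) • v)) :=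
        (continuous_id.smul continuous_const).tendsto 0
      rw [zero_smul] at this
      exact this.mono_left nhdsWithin_le_nhds
    have hline' : Tendsto (fun s : ℂ => s • v) (𝓝 0) (𝓝 0) := by
      have : Tendsto (fun s : ℂ => s • v) (𝓝 0) (𝓝 ((0 : ℂ) • v)) :=
        (continuous_id.smul continuous_const).tendsto 0
      rwa [zero_smul] at this
    set L : ℂ → ℂ := fun s => ∑ m ∈ P.support, c.ψ (s • v) (P.coeff m) * ∏ i, v i ^ m i with hL
    have hex : ∀ᶠ s : ℂ in 𝓝[≠] 0, c.ψ (s • v) (MvPolynomial.eval c.t P) = s ^ k * L s := by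
      have h2 : ∀ᶠ s : ℂ in 𝓝[≠] 0, s • v ∈ ball (0 : Fin d → ℂ) c.ρ := hline (ball_mem c)
      filter_upwards [h2] with s hs
      rw [MvPolynomial.eval_eq', map_sum, hL, Finset.mul_sum]
      refine Finset.sum_congr rfl fun m hm => ?_
      have hdeg : ∑ i, m i = k := by
        have h3 := hP (MvPolynomial.mem_support_iff.1 hm)
        rw [← h3, ← Finsupp.degree_eq_sum, Finsupp.degree_eq_weight_one]
        rfl
      rw [map_mul, map_prod]
      have h4 : ∏ i, c.ψ (s • v) (c.t i ^ m i) = s ^ k * ∏ i, v i ^ m i := by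
        rw [← hdeg, ← Finset.prod_pow_eq_pow_sum, ← Finset.prod_mul_distrib]
        refine Finset.prod_congr rfl fun i _ => ?_
        rw [map_pow, c.coord _ hs i, Pi.smul_apply, smul_eq_mul, mul_pow]
      rw [h4]
      ring
    have hlim : Tendsto L (𝓝[≠] 0) (𝓝 (MvPolynomial.eval v (MvPolynomial.map (φ : R →+* ℂ) P))) := by
      have h5 : MvPolynomial.eval v (MvPolynomial.map (φ : R →+* ℂ) P) =
          ∑ m ∈ P.support, φ (P.coeff m) * ∏ i, v i ^ m i := by
        rw [MvPolynomial.eval_map, MvPolynomial.eval₂_eq']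
        rfl
      rw [h5]
      refine tendsto_finsetSum _ fun m _ => Tendsto.mul_const _ ?_
      have h6 := (cont c (P.coeff m)).tendsto.comp hline
      rw [c.zero] at h6
      exact h6
    have h1 := hO.comp_tendsto hline
    obtain ⟨C, hC⟩ := h1.bound
    have hzero : Tendsto L (𝓝[≠] 0) (𝓝 0) := by
      rw [tendsto_zero_iff_norm_tendsto_zero]
      have hb : ∀ᶠ s : ℂ in 𝓝[≠] 0, ‖L s‖ ≤ C * ‖v‖ ^ (k + 1) * ‖s‖ := by
        filter_upwards [hC, hex, self_mem_nhdsWithin] with s h7 h8 h9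
        have hs : 0 < ‖s‖ := norm_pos_iff.2 h9
        simp only [Function.comp_apply] at h7
        rw [h8, norm_mul, norm_pow, norm_pow, norm_norm, norm_smul, mul_pow] at h7
        have h10 : ‖s‖ ^ k * ‖L s‖ ≤ ‖s‖ ^ k * (C * ‖v‖ ^ (k + 1) * ‖s‖) := by
          refine h7.trans (le_of_eq ?_)
          ring
        exact le_of_mul_le_mul_left h10 (by positivity)
      have hz : Tendsto (fun s : ℂ => C * ‖v‖ ^ (k + 1) * ‖s‖) (𝓝[≠] 0) (𝓝 0) := by
        have : Tendsto (fun s : ℂ => C * ‖v‖ ^ (k + 1) * ‖s‖) (𝓝 0)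
            (𝓝 (C * ‖v‖ ^ (k + 1) * ‖(0 : ℂ)‖)) :=
          (continuous_const.mul continuous_norm).tendsto 0
        rw [norm_zero, mul_zero] at this
        exact this.mono_left nhdsWithin_le_nhds
      exact squeeze_zero' (Eventually.of_forall fun s => norm_nonneg _) hb hz
    exact tendsto_nhds_unique hlim hzero
  have h2 := congrArg (MvPolynomial.coeff m) key
  rw [MvPolynomial.coeff_map, MvPolynomial.coeff_zero] at h2
  exact h2

theorem span_le_ker : Ideal.span (Set.range c.t) ≤ RingHom.ker φ := by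
  rw [Ideal.span_le]
  rintro _ ⟨j, rfl⟩
  rw [SetLike.mem_coe, RingHom.mem_ker]
  have h := c.coord 0 (mem_ball_self c.ρ_pos) j
  rwa [c.zero] at h

/-- An element of `R` which vanishes to order `k` in the chart belongs locally to the `k`-th power
of the ideal of the parameters. -/
theorem exists_mem_pow
    (hgen : ∀ r, φ r = 0 → ∃ s, φ s ≠ 0 ∧ s * r ∈ Ideal.span (Set.range c.t)) (k : ℕ) {g : R}
    (hg : (fun x => c.ψ x g) =O[𝓝 0] fun x => ‖x‖ ^ k) :
    ∃ s, φ s ≠ 0 ∧ s * g ∈ Ideal.span (Set.range c.t) ^ k := by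
  classical
  induction k with
  | zero => exact ⟨1, by simp, by simp⟩
  | succ k ih =>
    have hle : (fun x : Fin d → ℂ => ‖x‖ ^ (k + 1)) =O[𝓝 0] fun x => ‖x‖ ^ k := by
      refine IsBigO.of_bound 1 ?_
      filter_upwards [ball_mem_nhds (0 : Fin d → ℂ) one_pos] with x hx
      rw [mem_ball_zero_iff] at hx
      rw [norm_pow, norm_pow, norm_norm, one_mul, pow_succ]
      exact mul_le_of_le_one_right (by positivity) hx.le
    obtain ⟨s, hs, hsg⟩ := ih (hg.trans hle)
    obtain ⟨P, hP, hPe⟩ := (Ideal.mem_span_pow_iff_exists_isHomogeneous c.t (s * g)).1 hsg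
    have hO : (fun x => c.ψ x (MvPolynomial.eval c.t P)) =O[𝓝 0] fun x => ‖x‖ ^ (k + 1) := by
      rw [hPe]
      have h1 : (fun x => c.ψ x (s * g)) = fun x => c.ψ x s * c.ψ x g := by
        funext x
        rw [map_mul]
      rw [h1]
      have h2 : (fun x => c.ψ x s) =O[𝓝 0] fun _ => (1 : ℝ) := (cont c s).isBigO_one ℝ
      have h3 := h2.mul hg
      simpa using h3
    have hcoef : ∀ m, φ (P.coeff m) = 0 := fun m => coeff_zero c hP hO m
    choose S hS hSm using fun m => hgen _ (hcoef m)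
    refine ⟨(∏ m ∈ P.support, S m) * s, ?_, ?_⟩
    · rw [map_mul, map_prod]
      exact mul_ne_zero (Finset.prod_ne_zero_iff.2 fun m _ => hS m) hs
    · rw [mul_assoc, ← hPe, MvPolynomial.eval_eq', Finset.mul_sum]
      refine Ideal.sum_mem _ fun m hm => ?_
      rw [← mul_assoc, pow_succ']
      refine Ideal.mul_mem_mul ?_ ?_
      · rw [← Finset.mul_prod_erase _ _ hm, mul_comm (S m), mul_assoc]
        exact Ideal.mul_mem_left _ _ (hSm m)
      · rw [Ideal.mem_span_pow_iff_exists_isHomogeneous]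
        refine ⟨MvPolynomial.monomial m 1, ?_, ?_⟩
        · refine MvPolynomial.isHomogeneous_monomial _ ?_
          have h3 := hP (MvPolynomial.mem_support_iff.1 hm)
          rw [← h3, Finsupp.degree_eq_weight_one]
          rfl
        · rw [MvPolynomial.eval_monomial, one_mul, Finsupp.prod_fintype]
          simp

/-- **A quotient which is holomorphic in the chart belongs to the local ring.** -/
theorem krull [IsDomain R] [Algebra.FiniteType ℂ R]
    (hgen : ∀ r, φ r = 0 → ∃ s, φ s ≠ 0 ∧ s * r ∈ Ideal.span (Set.range c.t)) {a b : R}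
    {h : (Fin d → ℂ) → ℂ} (hh : AnalyticAt ℂ h 0)
    (hab : ∀ᶠ x in 𝓝 0, c.ψ x a = h x * c.ψ x b) :
    ∃ s r : R, φ s ≠ 0 ∧ s * a = r * b := by
  classical
  have hNoeth : IsNoetherianRing R := Algebra.FiniteType.isNoetherianRing ℂ R
  set p : Ideal R := RingHom.ker φ with hp
  have hprime : p.IsPrime := RingHom.ker_isPrime φ
  have key : ∀ k : ℕ, ∃ q s : R, φ s ≠ 0 ∧ s * (a - b * q) ∈ p ^ k := by
    intro k
    obtain ⟨Q, hQ⟩ := exists_taylor hh k
    refine ⟨MvPolynomial.aeval c.t Q, ?_⟩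
    have hO : (fun x => c.ψ x (a - b * MvPolynomial.aeval c.t Q)) =O[𝓝 0] fun x => ‖x‖ ^ k := by
      have h1 : (fun x => c.ψ x b) =O[𝓝 0] fun _ => (1 : ℝ) := (cont c b).isBigO_one ℝ
      have h2 := hQ.mul h1
      simp only [mul_one] at h2
      refine h2.congr' ?_ EventuallyEq.rfl
      filter_upwards [hab, ball_mem c] with x hx hxb
      rw [map_sub, map_mul, hx, psi_aeval c hxb]
      ring
    obtain ⟨s, hs, hsm⟩ := exists_mem_pow c hgen k hO
    exact ⟨s, hs, Ideal.pow_right_mono (span_le_ker c) k hsm⟩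
  set L := Localization.AtPrime p
  let M := L ⧸ (Ideal.span {algebraMap R L b} : Ideal L)
  have hmem : ∀ k : ℕ, (Ideal.Quotient.mk (Ideal.span {algebraMap R L b}) (algebraMap R L a) : M) ∈
      ((IsLocalRing.maximalIdeal L) ^ k • ⊤ : Submodule L M) := by
    intro k
    obtain ⟨q, s, hs, hsm⟩ := key k
    have hu : IsUnit (algebraMap R L s) := by
      refine IsLocalization.map_units L (⟨s, ?_⟩ : p.primeCompl)
      intro h
      exact hs ((RingHom.mem_ker).1 h)
    have h1 : algebraMap R L (a - b * q) ∈ IsLocalRing.maximalIdeal L ^ k := by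
      have h2 : algebraMap R L (s * (a - b * q)) ∈ IsLocalRing.maximalIdeal L ^ k := by
        rw [← Localization.AtPrime.map_eq_maximalIdeal, ← Ideal.map_pow]
        exact Ideal.mem_map_of_mem _ hsm
      rw [map_mul] at h2
      obtain ⟨u, hu⟩ := hu
      rw [← hu] at h2
      have h3 := Ideal.mul_mem_left _ (↑u⁻¹ : L) h2
      rwa [Units.inv_mul_cancel_left] at h3
    have h2 : (Ideal.Quotient.mk (Ideal.span {algebraMap R L b}) (algebraMap R L a) : M) =
        algebraMap R L (a - b * q) • (1 : M) := by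
      have h3 : (algebraMap R L (a - b * q) • (1 : M)) =
          Ideal.Quotient.mk (Ideal.span {algebraMap R L b}) (algebraMap R L (a - b * q)) := by
        show Ideal.Quotient.mk (Ideal.span {algebraMap R L b})
          (algebraMap R L (a - b * q) • (1 : L)) = _
        rw [smul_eq_mul, mul_one]
      rw [h3, Ideal.Quotient.eq, ← map_sub, sub_sub_cancel, map_mul]
      exact Ideal.mul_mem_right _ _ (Ideal.mem_span_singleton_self _)
    rw [h2]
    exact Submodule.smul_mem_smul h1 trivial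
  have hbot := Ideal.iInf_pow_smul_eq_bot_of_isLocalRing (R := L) (M := M)
    (IsLocalRing.maximalIdeal L) (Ideal.IsPrime.ne_top inferInstance)
  have h0 : (Ideal.Quotient.mk (Ideal.span {algebraMap R L b}) (algebraMap R L a) : M) = 0 := by
    have h1 : (Ideal.Quotient.mk (Ideal.span {algebraMap R L b}) (algebraMap R L a) : M) ∈
        (⨅ i : ℕ, (IsLocalRing.maximalIdeal L) ^ i • ⊤ : Submodule L M) :=
      (Submodule.mem_iInf _).2 hmem
    rw [hbot] at h1
    exact (Submodule.mem_bot L).1 h1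
  rw [Ideal.Quotient.eq_zero_iff_mem, Ideal.mem_span_singleton'] at h0
  obtain ⟨w, hw⟩ := h0
  obtain ⟨r, s, rfl⟩ := IsLocalization.exists_mk'_eq p.primeCompl w
  refine ⟨s, r, ?_, ?_⟩
  · intro h
    exact s.2 ((RingHom.mem_ker).2 h)
  · have h1 : algebraMap R L (r * b) = algebraMap R L (s * a) := by
      rw [map_mul, map_mul, ← hw, ← mul_assoc, mul_comm (algebraMap R L s), IsLocalization.mk'_spec]
    exact (IsLocalization.injective L p.primeCompl_le_nonZeroDivisors h1).symm

/-- **A square integrable quotient is holomorphic.** -/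
theorem exists_holo_of_l2 [IsDomain R] [Algebra.FiniteType ℂ R] {u v : R} (hv : v ≠ 0) {ε : ℝ}
    (hε : 0 < ε)
    (hint : ∫⁻ x in ball (0 : Fin d → ℂ) ε,
      ENNReal.ofReal (‖c.ψ x u‖ ^ 2 / ‖c.ψ x v‖ ^ 2) < ⊤) :
    ∃ h : (Fin d → ℂ) → ℂ, AnalyticAt ℂ h 0 ∧ ∀ᶠ x in 𝓝 0, c.ψ x u = h x * c.ψ x v := by
  set U : Set (Fin d → ℂ) := ball 0 (min ε c.ρ) with hU
  have hUo : IsOpen U := isOpen_ball
  have hUε : U ⊆ ball 0 ε := ball_subset_ball (min_le_left _ _)
  have hUρ : U ⊆ ball 0 c.ρ := ball_subset_ball (min_le_right _ _)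
  have hdu : DifferentiableOn ℂ (fun x => c.ψ x u) U := (c.holo u).differentiableOn.mono hUρ
  have hdv : DifferentiableOn ℂ (fun x => c.ψ x v) U := (c.holo v).differentiableOn.mono hUρ
  have hne : ∀ p ∈ U, ∃ᶠ z in 𝓝 p, c.ψ z v ≠ 0 := fun p hp hcon =>
    Vale.Agent.P271.H879.chart_inj c hv (hUρ hp) (by
      filter_upwards [hcon] with z hz
      simpa using hz)
  have hdq : DifferentiableOn ℂ (fun x => c.ψ x u / c.ψ x v) (U ∩ {z | c.ψ z v ≠ 0}) := by
    simp only [div_eq_mul_inv]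
    exact (hdu.mono Set.inter_subset_left).fun_mul
      ((hdv.mono Set.inter_subset_left).fun_inv fun x hx => hx.2)
  obtain ⟨F, hF, hFe⟩ := Vale.Agent.P271.H408.ext_L2 (h := fun x => c.ψ x v)
    (f := fun x => c.ψ x u / c.ψ x v) hUo hdv hne hdq (fun p hp => by
      obtain ⟨r, hr, hrU⟩ := Metric.isOpen_iff.1 hUo p hp
      refine ⟨r, hr, ne_top_of_le_ne_top hint.ne ?_⟩
      refine le_trans (le_of_eq ?_) (lintegral_mono_set
        (Set.inter_subset_left.trans (hrU.trans hUε)) (s := ball p r ∩ {z | c.ψ z v ≠ 0}))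
      refine lintegral_congr fun z => ?_
      rw [← ofReal_norm, norm_div, ← ENNReal.ofReal_pow (by positivity), div_pow])
  have h0 : (0 : Fin d → ℂ) ∈ U := mem_ball_self (lt_min hε c.ρ_pos)
  refine ⟨F, (Vale.Agent.P268.analyticOnNhd_of_differentiableOn hUo hF) 0 h0, ?_⟩
  filter_upwards [hUo.mem_nhds h0] with x hx
  -- density
  have hcF : ContinuousAt F x := (hF x hx).differentiableAt (hUo.mem_nhds hx) |>.continuousAt
  have hcu : ContinuousAt (fun x => c.ψ x u) x := (c.holo u x (hUρ hx)).continuousAt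
  have hcv : ContinuousAt (fun x => c.ψ x v) x := (c.holo v x (hUρ hx)).continuousAt
  by_contra hcon
  have hd : ∀ᶠ z in 𝓝 x, c.ψ z u ≠ F z * c.ψ z v := by
    have h1 : ContinuousAt (fun z => c.ψ z u - F z * c.ψ z v) x := hcu.sub (hcF.mul hcv)
    have h2 := h1.eventually_ne (sub_ne_zero.2 hcon)
    filter_upwards [h2] with z hz
    exact sub_ne_zero.1 hz
  obtain ⟨z, hz, hz2, hz3⟩ := ((hne x hx).and_eventually (hd.and (hUo.mem_nhds hx))).exists
  apply hz2
  rw [hFe z hz3 hz, div_mul_cancel₀ _ hz]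

/-- **Combined form**: a quotient which is square integrable in the chart belongs to the local
ring. -/
theorem l2reg [IsDomain R] [Algebra.FiniteType ℂ R]
    (hgen : ∀ r, φ r = 0 → ∃ s, φ s ≠ 0 ∧ s * r ∈ Ideal.span (Set.range c.t)) {u v : R}
    (hv : v ≠ 0) {ε : ℝ} (hε : 0 < ε)
    (hint : ∫⁻ x in ball (0 : Fin d → ℂ) ε,
      ENNReal.ofReal (‖c.ψ x u‖ ^ 2 / ‖c.ψ x v‖ ^ 2) < ⊤) :
    ∃ s r : R, φ s ≠ 0 ∧ s * u = r * v := by
  obtain ⟨h, hh, he⟩ := exists_holo_of_l2 c hv hε hint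
  exact krull c hgen hh he

end chart

end Vale.Agent.P271.H577
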