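import Vale.Agent.P271.H879.L2
import Vale.Agent.P271.H577.Krull

/-! P271, row 03-L2REG: locally square integrable forms are regular (final form). -/

open Filter Topology Metric MeasureTheory
open scoped ENNReal

namespace Vale.Agent.P271.H577

open Vale.Agent.P271.H741 Vale.Agent.P271.Sch Vale.Agent.P271.Inst Vale.Agent.P271.H879

variable {n : ℕ} {C : GCone n}

theorem crit {φ : C.Pt} (c : Chart φ (n + 1))
    (hgen : ∀ r, φ r = 0 → ∃ s, φ s ≠ 0 ∧ s * r ∈ Ideal.span (Set.range c.t)) : Crit c := by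
  have hft : Algebra.FiniteType ℂ C.R := C.finiteType
  rintro u v hv ⟨V, hV, hint⟩
  obtain ⟨ε, hε, hsub⟩ := Metric.mem_nhds_iff.1 hV
  exact l2reg c hgen hv hε ((lintegral_mono_set hsub).trans_lt hint)

/-- **A locally square integrable form is regular.** -/
theorem l2reg_cone {φ : C.Pt} (hφ : GCone.NV φ)
    (z : Fin (n + 1) → C.R) {a b : C.R} (hb : b ≠ 0)
    (h : ∀ c : Chart φ (n + 1), LInt 0 fun x => ENNReal.ofReal (‖c.ψ x a / c.ψ x b *
      (Matrix.of fun i j => fderiv ℂ (fun y => c.ψ y (z i)) x (Pi.single j 1)).det‖ ^ 2))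
    (D : Fin (n + 1) → Derivation ℂ C.K C.K) (hD : ∀ k, GCone.RegDer φ (D k)) :
    GCone.RegAt φ (algebraMap C.R C.K a / algebraMap C.R C.K b * GCone.jac z D) :=
  l2reg_of hφ (fun c hgen => crit c hgen) z hb h D hD

end Vale.Agent.P271.H577
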